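import Vale.Agent.P066.Theta.Dilog

/-!
# One-variable identities for mutations

`Psi c = Ψ(v^c t)`, `Psi n = P n * Psi (-n)` with the palindromic polynomial
`P n = ∏_{i<n} (1 + v^{2i+1-n} t)`.
-/

set_option autoImplicit false

open Finset

namespace Vale.Agent.P066.Theta

namespace H21

noncomputable section

open Polynomial

theorem vne : v ≠ 0 := RatFunc.X_ne_zero

/-- `Ψ(v^c t)` -/
def Psi (c : ℤ) : PowerSeries K := PowerSeries.mk fun m => psi m * v ^ (c * (m : ℤ))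

theorem coeff_Psi (c : ℤ) (m : ℕ) : PowerSeries.coeff m (Psi c) = psi m * v ^ (c * (m : ℤ)) := by
  rw [Psi, PowerSeries.coeff_mk]

theorem constCoeff_Psi (c : ℤ) : PowerSeries.coeff 0 (Psi c) = 1 := by
  rw [coeff_Psi]
  simp [psi]

theorem Psi_ne_zero (c : ℤ) : Psi c ≠ 0 := by
  intro h
  have := constCoeff_Psi c
  rw [h] at this
  simp at this

theorem Psi_shift (c : ℤ) :
    Psi (c + 2) = (((1 + C (v ^ (c + 1)) * X : K[X])) : PowerSeries K) * Psi c := by
  ext m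
  rw [Polynomial.coe_add, Polynomial.coe_one, Polynomial.coe_mul, Polynomial.coe_C,
    Polynomial.coe_X, add_mul, one_mul, map_add, mul_assoc, PowerSeries.coeff_C_mul]
  rcases m with _ | m
  · rw [PowerSeries.coeff_zero_X_mul, coeff_Psi, coeff_Psi]
    simp
  · rw [PowerSeries.coeff_succ_X_mul, coeff_Psi, coeff_Psi, coeff_Psi]
    have h := Dil.psi_rec (m + 1)
    rw [if_neg (by omega), Nat.add_sub_cancel] at h
    have e1 : v ^ ((c + 2) * ((m + 1 : ℕ) : ℤ)) =
        v ^ (c * ((m + 1 : ℕ) : ℤ)) * v ^ (2 * ((m + 1 : ℕ) : ℤ)) := by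
      rw [← zpow_add₀ vne]
      ring_nf
    have e2 : v ^ (c * ((m + 1 : ℕ) : ℤ)) * v = v ^ (c + 1) * v ^ (c * (m : ℤ)) := by
      rw [← zpow_add₀ vne, ← zpow_add_one₀ vne]
      congr 1
      push_cast
      ring
    calc psi (m + 1) * v ^ ((c + 2) * ((m + 1 : ℕ) : ℤ))
        = v ^ (c * ((m + 1 : ℕ) : ℤ)) * (v ^ (2 * ((m + 1 : ℕ) : ℤ)) * psi (m + 1)) := by
          rw [e1]; ring
      _ = psi (m + 1) * v ^ (c * ((m + 1 : ℕ) : ℤ)) +
          (v ^ (c * ((m + 1 : ℕ) : ℤ)) * v) * psi m := by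
          rw [h]; ring
      _ = _ := by rw [e2]; ring

/-- general product formula -/
theorem Psi_prod (c : ℤ) (n : ℕ) :
    Psi (c + 2 * n) =
      ((∏ i ∈ range n, (1 + C (v ^ (2 * (i : ℤ) + 1 + c)) * X) : K[X]) : PowerSeries K) * Psi c := by
  induction n with
  | zero => simp
  | succ n ih =>
    have e : c + 2 * ((n + 1 : ℕ) : ℤ) = (c + 2 * n) + 2 := by push_cast; ring
    rw [e, Psi_shift, ih, prod_range_succ, Polynomial.coe_mul]
    have e2 : (c + 2 * (n : ℤ) + 1) = 2 * (n : ℤ) + 1 + c := by ring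
    rw [e2]
    ring

/-- the palindromic polynomial `∏_{i<n} (1 + v^{2i+1-n} t)` -/
def Pal (n : ℕ) : K[X] := ∏ i ∈ range n, (1 + C (v ^ (2 * (i : ℤ) + 1 + (-(n : ℤ)))) * X)

theorem Psi_pal (n : ℕ) : Psi n = (Pal n : PowerSeries K) * Psi (-(n : ℤ)) := by
  have := Psi_prod (-(n : ℤ)) n
  rw [Pal, ← this]
  congr 1
  ring

theorem natDegree_lin (a : K) : (1 + C a * X : K[X]).natDegree ≤ 1 := by
  refine (natDegree_add_le _ _).trans ?_
  rw [natDegree_one]
  exact max_le (by omega) ((natDegree_C_mul_le a X).trans natDegree_X_le)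

theorem natDegree_prod_lin (a : ℕ → K) (n : ℕ) :
    (∏ i ∈ range n, (1 + C (a i) * X) : K[X]).natDegree ≤ n := by
  refine (natDegree_prod_le _ _).trans ?_
  calc ∑ i ∈ range n, (1 + C (a i) * X : K[X]).natDegree ≤ ∑ _i ∈ range n, 1 :=
        sum_le_sum fun i _ => natDegree_lin _
    _ = n := by simp

theorem natDegree_Pal (n : ℕ) : (Pal n).natDegree ≤ n := natDegree_prod_lin _ n

theorem reflect_lin (a : K) : (1 + C a * X : K[X]).reflect 1 = X + C a := by
  rw [reflect_add, reflect_C_mul, reflect_one_X, mul_one]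
  simp

theorem reflect_prod_lin (a : ℕ → K) (n : ℕ) :
    (∏ i ∈ range n, (1 + C (a i) * X) : K[X]).reflect n = ∏ i ∈ range n, (X + C (a i)) := by
  induction n with
  | zero => simp
  | succ n ih =>
    rw [prod_range_succ, prod_range_succ, reflect_mul _ _ (natDegree_prod_lin a n)
      (natDegree_lin _), ih, reflect_lin]

theorem prod_v (c : ℤ) (n : ℕ) :
    ∏ i ∈ range n, v ^ (2 * (i : ℤ) + 1 + c) = v ^ ((n : ℤ) ^ 2 + c * n) := by
  induction n with
  | zero => simp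
  | succ n ih =>
    rw [prod_range_succ, ih, ← zpow_add₀ vne]
    congr 1
    push_cast
    ring

theorem reflect_Pal (n : ℕ) : (Pal n).reflect n = Pal n := by
  rw [Pal, reflect_prod_lin (fun i => v ^ (2 * (i : ℤ) + 1 + (-(n : ℤ)))) n]
  have h1 : ∀ i ∈ range n, (X + C (v ^ (2 * (i : ℤ) + 1 + (-(n : ℤ)))) : K[X]) =
      C (v ^ (2 * (i : ℤ) + 1 + (-(n : ℤ)))) *
        (1 + C (v ^ (2 * ((n - 1 - i : ℕ) : ℤ) + 1 + (-(n : ℤ)))) * X) := by
    intro i hi
    rw [mem_range] at hi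
    have e : (v ^ (2 * (i : ℤ) + 1 + (-(n : ℤ)))) *
        (v ^ (2 * ((n - 1 - i : ℕ) : ℤ) + 1 + (-(n : ℤ)))) = 1 := by
      rw [← zpow_add₀ vne]
      have : 2 * (i : ℤ) + 1 + -(n : ℤ) + (2 * ((n - 1 - i : ℕ) : ℤ) + 1 + -(n : ℤ)) = 0 := by
        omega
      rw [this, zpow_zero]
    rw [mul_add, mul_one, ← mul_assoc, ← C_mul, e, C_1, one_mul, add_comm]
  rw [prod_congr rfl h1, prod_mul_distrib]
  have h2 : (∏ i ∈ range n, C (v ^ (2 * (i : ℤ) + 1 + (-(n : ℤ)))) : K[X]) = 1 := by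
    rw [← map_prod, prod_v]
    have : (n : ℤ) ^ 2 + -(n : ℤ) * n = 0 := by ring
    rw [this, zpow_zero, C_1]
  rw [h2, one_mul]
  exact prod_range_reflect
    (fun i => (1 + C (v ^ (2 * (i : ℤ) + 1 + (-(n : ℤ)))) * X : K[X])) n

/-- The reversed identity. -/
theorem rev_identity {n0 : ℤ} {R L : ℕ} (hRL : (L : ℤ) = R + n0) (H Ht : K[X])
    (hH : H.natDegree ≤ R) (hHt : Ht.natDegree ≤ L)
    (h : (H : PowerSeries K) * Psi n0 = (Ht : PowerSeries K) * Psi (-n0)) :
    ((H.reflect R : K[X]) : PowerSeries K) * Psi n0 =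
      ((Ht.reflect L : K[X]) : PowerSeries K) * Psi (-n0) := by
  obtain ⟨n, hn | hn⟩ := n0.eq_nat_or_neg
  · subst hn
    rw [Psi_pal, ← mul_assoc] at h
    have h1 := mul_right_cancel₀ (Psi_ne_zero _) h
    rw [← Polynomial.coe_mul, Polynomial.coe_inj] at h1
    have hL : L = R + n := by omega
    subst hL
    rw [← h1, reflect_mul _ _ hH (natDegree_Pal n), reflect_Pal, Polynomial.coe_mul, mul_assoc,
      ← Psi_pal]
  · subst hn
    rw [neg_neg, Psi_pal, ← mul_assoc] at h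
    have h1 := mul_right_cancel₀ (Psi_ne_zero _) h
    rw [← Polynomial.coe_mul, Polynomial.coe_inj] at h1
    have hR : R = L + n := by omega
    subst hR
    rw [h1, reflect_mul _ _ hHt (natDegree_Pal n), reflect_Pal, Polynomial.coe_mul, neg_neg,
      mul_assoc, ← Psi_pal]

/-- Degree bound: `Ht Ψ(v^{-n} t) = H Ψ(v^n t)` and `deg H ≤ R` imply `deg Ht ≤ R + n`. -/
theorem tail_bound {n R : ℕ} {H Ht : PowerSeries K} (h : H * Psi n = Ht * Psi (-(n : ℤ)))
    (hH : ∀ i, R < i → PowerSeries.coeff i H = 0) :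
    ∀ i, R + n < i → PowerSeries.coeff i Ht = 0 := by
  rw [Psi_pal, ← mul_assoc] at h
  have h1 := mul_right_cancel₀ (Psi_ne_zero _) h
  intro i hi
  rw [← h1, PowerSeries.coeff_mul]
  refine sum_eq_zero fun p hp => ?_
  rw [HasAntidiagonal.mem_antidiagonal] at hp
  by_cases h2 : R < p.1
  · rw [hH _ h2, zero_mul]
  · rw [Polynomial.coeff_coe, coeff_eq_zero_of_natDegree_lt, mul_zero]
    have := natDegree_Pal n
    omega

end

end H21

end Vale.Agent.P066.Theta
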