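import Vale.Agent.P066.Theta.H21.Iota

/-!
# The commutation identity at a mutation

If `Ψ(y_k) h = l Ψ(y_k)`, `h` supported on `{b_k ≤ w₊(b)}` and `l` on `{b_k ≤ w₋(b)}`, then
`transp h * Ψ(y'_k) = Ψ(y'_k) * trL l` in the mutated torus.
-/

set_option autoImplicit false

open Finset

namespace Vale.Agent.P066.Theta

namespace H21

noncomputable section

open QSeries

variable {r : ℕ} {B : Matrix (Fin r) (Fin r) ℤ}

/-- `ω(y_k, γ)` -/
def thk (B : Matrix (Fin r) (Fin r) ℤ) (k : Fin r) (γ : Fin r →₀ ℕ) : ℤ :=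
  ∑ j, B k j * (γ j : ℤ)

theorem omega_single_toZ (k : Fin r) (m : ℕ) (γ : Fin r →₀ ℕ) :
    omega B (toZ (Finsupp.single k m)) (toZ γ) = m * thk B k γ := by
  unfold omega thk toZ
  rw [sum_eq_single k]
  · rw [mul_sum]
    refine sum_congr rfl fun j _ => ?_
    rw [Finsupp.single_eq_same]
    ring
  · intro b _ hb
    rw [Finsupp.single_eq_of_ne hb]
    simp
  · simp

theorem omega_toZ_single (hB : B.transpose = -B) (k : Fin r) (m : ℕ) (γ : Fin r →₀ ℕ) :
    omega B (toZ γ) (toZ (Finsupp.single k m)) = -(m * thk B k γ) := by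
  rw [omega_swap hB, omega_single_toZ]

theorem thk_update (hB : B.transpose = -B) (k : Fin r) (γ : Fin r →₀ ℕ) (t : ℕ) :
    thk B k (γ.update k t) = thk B k γ := by
  unfold thk
  refine sum_congr rfl fun j _ => ?_
  by_cases h : j = k
  · subst h
    rw [diag_zero hB]
    ring
  · rw [Finsupp.update_apply, if_neg h]

theorem dilog_single (k : Fin r) (m : ℕ) :
    dilog B (Finsupp.single k 1) (Finsupp.single k m) = psi m := by
  have h := Dil.line_smul_apply (B := B) (c := Finsupp.single k 1)
    (by simp) psi m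
  rw [Finsupp.smul_single_one] at h
  exact h

theorem dilog_of_ne (k : Fin r) {γ : Fin r →₀ ℕ} (h : ∀ m : ℕ, Finsupp.single k m ≠ γ) :
    dilog B (Finsupp.single k 1) γ = 0 := by
  refine Dil.line_apply_of_not (B := B) psi fun m => ?_
  rw [Finsupp.smul_single_one]
  exact h m

theorem update_split (k : Fin r) (γ : Fin r →₀ ℕ) {m n : ℕ} (h : m ≤ n) :
    Finsupp.single k m + γ.update k (n - m) = γ.update k n := by
  ext j
  by_cases hj : j = k
  · subst hj
    simp
    omega
  · simp [Finsupp.update_apply, hj]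

theorem eq_update_of_add {k : Fin r} {γ x : Fin r →₀ ℕ} {m n : ℕ}
    (h : Finsupp.single k m + x = γ.update k n) : m ≤ n ∧ x = γ.update k (n - m) := by
  have hk := DFunLike.congr_fun h k
  rw [Finsupp.add_apply, Finsupp.single_eq_same, Finsupp.update_apply, if_pos rfl] at hk
  refine ⟨by omega, ?_⟩
  ext j
  have hj := DFunLike.congr_fun h j
  by_cases hjk : j = k
  · subst hjk
    rw [Finsupp.update_apply, if_pos rfl]
    omega
  · rw [Finsupp.add_apply, Finsupp.single_eq_of_ne hjk, Finsupp.update_apply, if_neg hjk,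
      zero_add] at hj
    rw [Finsupp.update_apply, if_neg hjk, hj]

/-- The `k`-string of `F` through `γ`. -/
def lineK (k : Fin r) (γ : Fin r →₀ ℕ) (F : QSeries B) : PowerSeries K :=
  PowerSeries.mk fun t => F (γ.update k t)

theorem coeff_lineK (k : Fin r) (γ : Fin r →₀ ℕ) (F : QSeries B) (t : ℕ) :
    PowerSeries.coeff t (lineK k γ F) = F (γ.update k t) := by
  rw [lineK, PowerSeries.coeff_mk]

theorem lineK_dilog_mul (hB : B.transpose = -B) (k : Fin r) (γ : Fin r →₀ ℕ) (F : QSeries B) :
    lineK k γ (dilog B (Finsupp.single k 1) * F) = lineK k γ F * Psi (thk B k γ) := by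
  classical
  ext n
  rw [coeff_lineK, mul_comm, PowerSeries.coeff_mul, mul_apply]
  symm
  refine sum_of_injOn (fun p => (Finsupp.single k p.1, γ.update k p.2)) ?_ ?_ ?_ ?_
  · rintro ⟨a, b⟩ h1 ⟨a', b'⟩ h2 he
    simp only [mem_coe, HasAntidiagonal.mem_antidiagonal] at h1 h2
    simp only [Prod.mk.injEq] at he
    have := Finsupp.single_injective k he.1
    subst this
    simp only [Prod.mk.injEq, true_and]
    omega
  · rintro ⟨a, b⟩ h1
    simp only [mem_coe, HasAntidiagonal.mem_antidiagonal] at h1 ⊢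
    subst h1
    have := update_split k γ (m := a) (n := a + b) (by omega)
    rwa [Nat.add_sub_cancel_left] at this
  · rintro ⟨x, y⟩ h1 h2
    rw [HasAntidiagonal.mem_antidiagonal] at h1
    simp only at h1 ⊢
    rw [dilog_of_ne, mul_zero, zero_mul]
    rintro m rfl
    apply h2
    obtain ⟨h3, h4⟩ := eq_update_of_add h1
    refine ⟨(m, n - m), ?_, ?_⟩
    · simp only [mem_coe, HasAntidiagonal.mem_antidiagonal]
      omega
    · simp only [h4]
  · rintro ⟨a, b⟩ h1
    rw [HasAntidiagonal.mem_antidiagonal] at h1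
    simp only
    rw [coeff_Psi, coeff_lineK, omega_single_toZ, thk_update hB, dilog_single]
    ring_nf

theorem lineK_mul_dilog (hB : B.transpose = -B) (k : Fin r) (γ : Fin r →₀ ℕ) (F : QSeries B) :
    lineK k γ (F * dilog B (Finsupp.single k 1)) = lineK k γ F * Psi (-thk B k γ) := by
  classical
  ext n
  rw [coeff_lineK, PowerSeries.coeff_mul, mul_apply]
  symm
  refine sum_of_injOn (fun p => (γ.update k p.1, Finsupp.single k p.2)) ?_ ?_ ?_ ?_
  · rintro ⟨a, b⟩ h1 ⟨a', b'⟩ h2 he
    simp only [mem_coe, HasAntidiagonal.mem_antidiagonal] at h1 h2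
    simp only [Prod.mk.injEq] at he
    have := Finsupp.single_injective k he.2
    subst this
    simp only [Prod.mk.injEq, and_true]
    omega
  · rintro ⟨a, b⟩ h1
    simp only [mem_coe, HasAntidiagonal.mem_antidiagonal] at h1 ⊢
    subst h1
    have := update_split k γ (m := b) (n := a + b) (by omega)
    rwa [Nat.add_sub_cancel, add_comm] at this
  · rintro ⟨x, y⟩ h1 h2
    rw [HasAntidiagonal.mem_antidiagonal] at h1
    simp only at h1 ⊢
    rw [dilog_of_ne, mul_zero]
    rintro m rfl
    apply h2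
    rw [add_comm] at h1
    obtain ⟨h3, h4⟩ := eq_update_of_add h1
    refine ⟨(n - m, m), ?_, ?_⟩
    · simp only [mem_coe, HasAntidiagonal.mem_antidiagonal]
      omega
    · simp only [h4]
  · rintro ⟨a, b⟩ h1
    rw [HasAntidiagonal.mem_antidiagonal] at h1
    simp only
    rw [coeff_Psi, coeff_lineK, omega_toZ_single hB, thk_update hB, dilog_single]
    ring_nf

/-- Left transport: `γ_k ↦ w₋(γ) - γ_k`. -/
def trL (B : Matrix (Fin r) (Fin r) ℤ) (k : Fin r) (l : QSeries B) : QSeries (mutB B k) :=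
  tr (mutB B k) (la B k) k l

theorem wplus_eq (B : Matrix (Fin r) (Fin r) ℤ) (k : Fin r) (γ : Fin r →₀ ℕ) :
    wplus B k γ = aSum (ra B k) γ := rfl

theorem wminus_eq (B : Matrix (Fin r) (Fin r) ℤ) (k : Fin r) (γ : Fin r →₀ ℕ) :
    wminus B k γ = aSum (la B k) γ := rfl

theorem transp_eq_tr (k : Fin r) (h : QSeries B) :
    transp B k h = tr (mutB B k) (ra B k) k h := by
  classical
  funext γ
  unfold transp tr
  by_cases hγ : γ k ≤ wplus B k γ
  · rw [if_pos hγ, if_pos (show γ ∈ SB (ra B k) k from hγ)]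
    rfl
  · rw [if_neg hγ, if_neg (show ¬ γ ∈ SB (ra B k) k from hγ)]

theorem aSum_update {a : Fin r → ℕ} {k : Fin r} (ha : a k = 0) (γ : Fin r →₀ ℕ) (t : ℕ) :
    aSum a (γ.update k t) = aSum a γ := by
  unfold aSum
  refine sum_congr rfl fun j _ => ?_
  by_cases h : j = k
  · subst h
    rw [ha, mul_zero, mul_zero]
  · rw [Finsupp.update_apply, if_neg h]

theorem aSum_la_sub (hB : B.transpose = -B) (k : Fin r) (γ : Fin r →₀ ℕ) :
    ((aSum (la B k) γ : ℕ) : ℤ) = aSum (ra B k) γ + thk B k γ := by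
  unfold aSum thk la ra
  push_cast
  rw [← sum_add_distrib]
  refine sum_congr rfl fun j _ => ?_
  have h := skew_apply hB j k
  have e : (((max (B k j) 0).toNat : ℕ) : ℤ) = ((max (B j k) 0).toNat : ℤ) + B k j := by omega
  rw [e]
  ring

/-- The string of a transported series is the reflected string. -/
theorem lineK_tr {B' : Matrix (Fin r) (Fin r) ℤ} {a : Fin r → ℕ} {k : Fin r} (ha : a k = 0)
    (γ : Fin r →₀ ℕ) (h : QSeries B) (hs : h ∈ supp (B := B) (SB a k)) :
    ∃ H : Polynomial K, H.natDegree ≤ aSum a γ ∧ (H : PowerSeries K) = lineK k γ h ∧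
      ((H.reflect (aSum a γ) : Polynomial K) : PowerSeries K) = lineK k γ (tr B' a k h) := by
  classical
  refine ⟨PowerSeries.trunc (aSum a γ + 1) (lineK k γ h), ?_, ?_, ?_⟩
  · rw [Polynomial.natDegree_le_iff_coeff_eq_zero]
    intro n hn
    rw [PowerSeries.coeff_trunc, if_neg (by omega)]
  · ext n
    rw [Polynomial.coeff_coe, PowerSeries.coeff_trunc]
    split_ifs with hn
    · rfl
    · rw [coeff_lineK]
      symm
      by_contra hne
      have := hs _ hne
      rw [mem_SB, aSum_update ha, Finsupp.update_apply, if_pos rfl] at this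
      omega
  · ext n
    rw [Polynomial.coeff_coe, Polynomial.coeff_reflect, PowerSeries.coeff_trunc]
    by_cases hn : n ≤ aSum a γ
    · rw [Polynomial.revAt_le hn, if_pos (by omega), coeff_lineK, coeff_lineK, tr_apply]
      · congr 1
        ext j
        by_cases hj : j = k
        · subst hj
          rw [Finsupp.update_apply, if_pos rfl, iota_self, aSum_update ha, Finsupp.update_apply,
            if_pos rfl]
        · rw [Finsupp.update_apply, if_neg hj, iota_ne a hj, Finsupp.update_apply, if_neg hj]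
      · rw [mem_SB, aSum_update ha, Finsupp.update_apply, if_pos rfl]
        exact hn
    · rw [Polynomial.revAt_eq_self_of_lt (by omega), if_neg (by omega), coeff_lineK,
        tr_apply_of_not]
      rw [mem_SB, aSum_update ha, Finsupp.update_apply, if_pos rfl]
      exact hn

theorem mutB_row (hB : B.transpose = -B) (k j : Fin r) : mutB B k k j = - B k j := by
  rw [mutB_eq_gram_ra, gram_cvec hB, if_pos (Or.inl rfl)]

theorem thk_mutB (hB : B.transpose = -B) (k : Fin r) (γ : Fin r →₀ ℕ) :
    thk (mutB B k) k γ = - thk B k γ := by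
  unfold thk
  rw [← sum_neg_distrib]
  refine sum_congr rfl fun j _ => ?_
  rw [mutB_row hB]
  ring

theorem ext_lineK {k : Fin r} {F G : QSeries B} (h : ∀ γ, lineK k γ F = lineK k γ G) : F = G := by
  ext γ
  have := congrArg (PowerSeries.coeff (γ k)) (h γ)
  rw [coeff_lineK, coeff_lineK] at this
  rwa [Finsupp.update_self] at this

/-- The commutation identity. -/
theorem transp_comm (hB : B.transpose = -B) (k : Fin r) {h l : QSeries B}
    (hh : ∀ b, h b ≠ 0 → b k ≤ wplus B k b) (hl : ∀ b, l b ≠ 0 → b k ≤ wminus B k b)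
    (hc : dilog B (Finsupp.single k 1) * h = l * dilog B (Finsupp.single k 1)) :
    transp B k h * dilog (mutB B k) (Finsupp.single k 1) =
      dilog (mutB B k) (Finsupp.single k 1) * trL B k l := by
  have hB' := mutB_skew hB k
  refine ext_lineK (k := k) fun γ => ?_
  rw [lineK_mul_dilog hB', lineK_dilog_mul hB', thk_mutB hB, neg_neg, transp_eq_tr, trL]
  obtain ⟨H, hH, hHe, hHr⟩ := lineK_tr (B' := mutB B k) (ra_self hB k) γ h hh
  obtain ⟨L, hL, hLe, hLr⟩ := lineK_tr (B' := mutB B k) (la_self hB k) γ l hl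
  rw [← hHr, ← hLr]
  refine rev_identity (aSum_la_sub hB k γ) H L hH hL ?_
  rw [hHe, hLe, ← lineK_dilog_mul hB, ← lineK_mul_dilog hB, hc]

end

end H21

end Vale.Agent.P066.Theta
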