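import Vale.Agent.P066.Theta.H21.OneVar
import Vale.Agent.P066.Theta.MutDefs

/-!
# Change of cone at a mutation

`y'_k = -y_k`, `y'_j = y_j + a_j y_k`.  On the monoid `SB a k = {γ_k ≤ ∑ γ_j a_j}` the change of
coordinates is the involution `γ_k ↦ ∑ γ_j a_j - γ_k`.  `tr` transports series.
-/

set_option autoImplicit false

open Finset

namespace Vale.Agent.P066.Theta

namespace H21

noncomputable section

open QSeries

variable {r : ℕ}

/-! ### Gram matrices and the mutated matrix -/

/-- The matrix `ω(c_i, c_j)`. -/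
def gram (B : Matrix (Fin r) (Fin r) ℤ) (c : Fin r → Fin r → ℤ) : Matrix (Fin r) (Fin r) ℤ :=
  fun i j => omega B (c i) (c j)

theorem omega_smul_l (B : Matrix (Fin r) (Fin r) ℤ) (m : ℤ) (x y : Fin r → ℤ) :
    omega B (m • x) y = m * omega B x y := by
  simp only [omega, Pi.smul_apply, smul_eq_mul, mul_sum]
  exact sum_congr rfl fun i _ => sum_congr rfl fun j _ => by ring

theorem omega_smul_r (B : Matrix (Fin r) (Fin r) ℤ) (m : ℤ) (x y : Fin r → ℤ) :
    omega B x (m • y) = m * omega B x y := by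
  simp only [omega, Pi.smul_apply, smul_eq_mul, mul_sum]
  exact sum_congr rfl fun i _ => sum_congr rfl fun j _ => by ring

theorem omega_neg_l (B : Matrix (Fin r) (Fin r) ℤ) (x y : Fin r → ℤ) :
    omega B (-x) y = - omega B x y := by
  have := omega_smul_l B (-1) x y
  simpa using this

theorem omega_neg_r (B : Matrix (Fin r) (Fin r) ℤ) (x y : Fin r → ℤ) :
    omega B x (-y) = - omega B x y := by
  have := omega_smul_r B (-1) x y
  simpa using this

theorem omega_sum_l {ι : Type*} (B : Matrix (Fin r) (Fin r) ℤ) (s : Finset ι)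
    (f : ι → Fin r → ℤ) (y : Fin r → ℤ) :
    omega B (∑ i ∈ s, f i) y = ∑ i ∈ s, omega B (f i) y := by
  classical
  induction s using Finset.induction_on with
  | empty => simp
  | insert a s ha ih => rw [sum_insert ha, sum_insert ha, omega_add_left, ih]

theorem omega_sum_r {ι : Type*} (B : Matrix (Fin r) (Fin r) ℤ) (s : Finset ι)
    (f : ι → Fin r → ℤ) (x : Fin r → ℤ) :
    omega B x (∑ i ∈ s, f i) = ∑ i ∈ s, omega B x (f i) := by
  classical
  induction s using Finset.induction_on with
  | empty => simp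
  | insert a s ha ih => rw [sum_insert ha, sum_insert ha, omega_add_right, ih]

theorem omega_gram (B : Matrix (Fin r) (Fin r) ℤ) (c : Fin r → Fin r → ℤ) (x y : Fin r → ℤ) :
    omega (gram B c) x y = omega B (∑ i, x i • c i) (∑ j, y j • c j) := by
  rw [omega_sum_l]
  unfold omega
  refine sum_congr rfl fun i _ => ?_
  have := omega_sum_r B univ (fun j => y j • c j) (x i • c i)
  unfold omega at this
  rw [this]
  refine sum_congr rfl fun j _ => ?_
  have h2 := omega_smul_l B (x i) (c i) (y j • c j)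
  have h3 := omega_smul_r B (y j) (c i) (c j)
  unfold omega at h2 h3
  rw [h2, h3]
  simp only [gram, omega]
  ring

theorem gram_skew {B : Matrix (Fin r) (Fin r) ℤ} (hB : B.transpose = -B)
    (c : Fin r → Fin r → ℤ) : (gram B c).transpose = -(gram B c) := by
  ext i j
  simp only [Matrix.transpose_apply, Matrix.neg_apply, gram]
  exact omega_swap hB _ _

theorem mutB_skew {B : Matrix (Fin r) (Fin r) ℤ} (hB : B.transpose = -B) (k : Fin r) :
    (mutB B k).transpose = -(mutB B k) := gram_skew hB (mutVec B k)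

@[simp] theorem omega_single_single (B : Matrix (Fin r) (Fin r) ℤ) (i j : Fin r) :
    omega B (Pi.single i 1) (Pi.single j 1) = B i j := by
  unfold omega
  rw [sum_eq_single i, sum_eq_single j]
  · simp
  · intro b _ hb
    simp [hb]
  · simp
  · intro b _ hb
    simp [hb]
  · simp

theorem gram_std (B : Matrix (Fin r) (Fin r) ℤ) : gram B (fun j => Pi.single j 1) = B := by
  ext i j
  simp [gram]

/-! ### the new vectors -/

/-- `c_k = -y_k`, `c_j = y_j + a_j y_k`. -/
def cvec (a : Fin r → ℕ) (k : Fin r) : Fin r → Fin r → ℤ := fun j =>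
  if j = k then -Pi.single k 1 else Pi.single j 1 + (a j : ℤ) • Pi.single k 1

/-- `max (B j k) 0` -/
def ra (B : Matrix (Fin r) (Fin r) ℤ) (k : Fin r) : Fin r → ℕ := fun j => (max (B j k) 0).toNat

/-- `max (B k j) 0` -/
def la (B : Matrix (Fin r) (Fin r) ℤ) (k : Fin r) : Fin r → ℕ := fun j => (max (B k j) 0).toNat

theorem skew_apply {B : Matrix (Fin r) (Fin r) ℤ} (hB : B.transpose = -B) (i j : Fin r) :
    B i j = - B j i := by
  have := congrFun (congrFun hB j) i
  simpa using this

theorem diag_zero {B : Matrix (Fin r) (Fin r) ℤ} (hB : B.transpose = -B) (k : Fin r) :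
    B k k = 0 := by
  have := skew_apply hB k k
  omega

theorem ra_self {B : Matrix (Fin r) (Fin r) ℤ} (hB : B.transpose = -B) (k : Fin r) :
    ra B k k = 0 := by
  simp [ra, diag_zero hB k]

theorem la_self {B : Matrix (Fin r) (Fin r) ℤ} (hB : B.transpose = -B) (k : Fin r) :
    la B k k = 0 := by
  simp [la, diag_zero hB k]

theorem mutC_std (B : Matrix (Fin r) (Fin r) ℤ) (k : Fin r) :
    mutC B (fun j => Pi.single j 1) k = mutVec B k := by
  funext j
  unfold mutC mutVec
  by_cases h : j = k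
  · simp [h]
  · simp only [if_neg h, omega_single_single]

theorem mutB_eq_gram_mutC (B : Matrix (Fin r) (Fin r) ℤ) (k : Fin r) :
    mutB B k = gram B (mutC B (fun j => Pi.single j 1) k) := by
  rw [mutC_std]
  rfl

theorem mutVec_eq (B : Matrix (Fin r) (Fin r) ℤ) (k : Fin r) : mutVec B k = cvec (ra B k) k := by
  funext j
  unfold mutVec cvec ra
  by_cases h : j = k
  · simp [h]
  · simp only [if_neg h]
    congr 2
    omega

theorem mutB_eq_gram_ra (B : Matrix (Fin r) (Fin r) ℤ) (k : Fin r) :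
    mutB B k = gram B (cvec (ra B k) k) := by
  rw [← mutVec_eq]
  rfl

/-- Mutation of the Gram matrix of a family of `c`-vectors. -/
theorem mutB_gram (B : Matrix (Fin r) (Fin r) ℤ) (c : Fin r → Fin r → ℤ) (k : Fin r) :
    mutB (gram B c) k = gram B (mutC B c k) := by
  ext i j
  have key : ∀ i : Fin r, ∑ l, (mutC (gram B c) (fun j => Pi.single j 1) k i) l • c l =
      mutC B c k i := by
    intro i
    unfold mutC
    by_cases h : i = k
    · subst h
      simp only [if_true, Pi.neg_apply, neg_smul, sum_neg_distrib]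
      rw [sum_eq_single i]
      · simp
      · intro b _ hb
        simp [hb]
      · simp
    · simp only [if_neg h, Pi.add_apply, Pi.smul_apply, add_smul, sum_add_distrib,
        omega_single_single]
      congr 1
      · rw [sum_eq_single i]
        · simp
        · intro b _ hb
          simp [hb]
        · simp
      · rw [sum_eq_single k]
        · simp [gram]
        · intro b _ hb
          simp [hb]
        · simp
  rw [mutB_eq_gram_mutC]
  change omega (gram B c) _ _ = omega B _ _
  rw [omega_gram, key, key]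

theorem gram_cvec {B : Matrix (Fin r) (Fin r) ℤ} (hB : B.transpose = -B) (a : Fin r → ℕ)
    (k i j : Fin r) : gram B (cvec a k) i j =
      if i = k ∨ j = k then - B i j else B i j + (a j : ℤ) * B i k + (a i : ℤ) * B k j := by
  unfold gram cvec
  by_cases hi : i = k
  · subst hi
    by_cases hj : j = i
    · subst hj
      simp [omega_neg_l, omega_neg_r, diag_zero hB]
    · rw [if_pos rfl, if_neg hj, if_pos (Or.inl rfl), omega_neg_l, omega_add_right, omega_smul_r,
        omega_single_single, omega_single_single, diag_zero hB]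
      ring
  · by_cases hj : j = k
    · subst hj
      rw [if_pos rfl, if_neg hi, if_pos (Or.inr rfl), omega_neg_r, omega_add_left, omega_smul_l,
        omega_single_single, omega_single_single, diag_zero hB]
      ring
    · simp only [hi, hj, or_self, if_false, omega_add_left, omega_add_right, omega_smul_l,
        omega_smul_r, omega_single_single, diag_zero hB]
      ring

theorem mutB_eq_gram_la {B : Matrix (Fin r) (Fin r) ℤ} (hB : B.transpose = -B) (k : Fin r) :
    mutB B k = gram B (cvec (la B k) k) := by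
  rw [mutB_eq_gram_ra]
  ext i j
  rw [gram_cvec hB, gram_cvec hB]
  split_ifs with h
  · rfl
  · simp only [ra, la]
    have e1 := skew_apply hB k i
    have e2 := skew_apply hB k j
    have f1 : (((max (B i k) 0).toNat : ℕ) : ℤ) - ((max (B k i) 0).toNat : ℤ) = B i k := by omega
    have f2 : (((max (B j k) 0).toNat : ℕ) : ℤ) - ((max (B k j) 0).toNat : ℤ) = B j k := by omega
    have g : ((((max (B j k) 0).toNat : ℕ) : ℤ) - ((max (B k j) 0).toNat : ℤ)) * B i k +
        ((((max (B i k) 0).toNat : ℕ) : ℤ) - ((max (B k i) 0).toNat : ℤ)) * B k j = 0 := by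
      rw [f1, f2, e2]; ring
    linarith

/-! ### the monoid and the involution -/

/-- `∑ γ_j a_j` -/
def aSum (a : Fin r → ℕ) (γ : Fin r →₀ ℕ) : ℕ := ∑ j, γ j * a j

theorem aSum_add (a : Fin r → ℕ) (γ δ : Fin r →₀ ℕ) : aSum a (γ + δ) = aSum a γ + aSum a δ := by
  simp [aSum, add_mul, sum_add_distrib]

@[simp] theorem aSum_zero (a : Fin r → ℕ) : aSum a 0 = 0 := by simp [aSum]

/-- `{γ_k ≤ ∑ γ_j a_j}` -/
def SB (a : Fin r → ℕ) (k : Fin r) : AddSubmonoid (Fin r →₀ ℕ) where
  carrier := {γ | γ k ≤ aSum a γ}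
  zero_mem' := by simp
  add_mem' := by
    intro γ δ h1 h2
    simp only [Set.mem_ofPred_eq] at h1 h2 ⊢
    rw [aSum_add, Finsupp.add_apply]
    omega

theorem mem_SB {a : Fin r → ℕ} {k : Fin r} {γ : Fin r →₀ ℕ} : γ ∈ SB a k ↔ γ k ≤ aSum a γ :=
  Iff.rfl

/-- The involution `γ_k ↦ ∑ γ_j a_j - γ_k`. -/
def iota (a : Fin r → ℕ) (k : Fin r) (γ : Fin r →₀ ℕ) : Fin r →₀ ℕ :=
  γ.update k (aSum a γ - γ k)

theorem iota_self (a : Fin r → ℕ) (k : Fin r) (γ : Fin r →₀ ℕ) :
    iota a k γ k = aSum a γ - γ k := by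
  simp [iota]

theorem iota_ne (a : Fin r → ℕ) {k j : Fin r} (h : j ≠ k) (γ : Fin r →₀ ℕ) :
    iota a k γ j = γ j := by
  simp [iota, h]

@[simp] theorem iota_zero (a : Fin r → ℕ) (k : Fin r) : iota a k 0 = 0 := by
  ext j
  by_cases h : j = k
  · subst h
    simp [iota_self]
  · simp [iota_ne a h]

theorem aSum_iota {a : Fin r → ℕ} {k : Fin r} (ha : a k = 0) (γ : Fin r →₀ ℕ) :
    aSum a (iota a k γ) = aSum a γ := by
  unfold aSum
  refine sum_congr rfl fun j _ => ?_
  by_cases h : j = k
  · subst h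
    rw [ha, mul_zero, mul_zero]
  · rw [iota_ne a h]

theorem iota_mem {a : Fin r → ℕ} {k : Fin r} (ha : a k = 0) (γ : Fin r →₀ ℕ) :
    iota a k γ ∈ SB a k := by
  rw [mem_SB, aSum_iota ha, iota_self]
  omega

theorem iota_iota {a : Fin r → ℕ} {k : Fin r} (ha : a k = 0) {γ : Fin r →₀ ℕ}
    (h : γ ∈ SB a k) : iota a k (iota a k γ) = γ := by
  ext j
  by_cases hj : j = k
  · subst hj
    rw [iota_self, aSum_iota ha, iota_self]
    rw [mem_SB] at h
    omega
  · rw [iota_ne a hj, iota_ne a hj]

theorem iota_add {a : Fin r → ℕ} {k : Fin r} {γ δ : Fin r →₀ ℕ} (h : γ ∈ SB a k)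
    (h' : δ ∈ SB a k) : iota a k (γ + δ) = iota a k γ + iota a k δ := by
  ext j
  by_cases hj : j = k
  · subst hj
    rw [Finsupp.add_apply, iota_self, iota_self, iota_self, aSum_add, Finsupp.add_apply]
    rw [mem_SB] at h h'
    omega
  · rw [Finsupp.add_apply, iota_ne a hj, iota_ne a hj, iota_ne a hj, Finsupp.add_apply]

theorem iota_eq_zero {a : Fin r → ℕ} {k : Fin r} (ha : a k = 0) {γ : Fin r →₀ ℕ}
    (h : γ ∈ SB a k) : iota a k γ = 0 ↔ γ = 0 := by
  constructor
  · intro h0
    rw [← iota_iota ha h, h0, iota_zero]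
  · rintro rfl
    exact iota_zero a k

/-- `∑ (toZ γ)_i c_i = toZ (iota γ)`. -/
theorem sum_cvec {a : Fin r → ℕ} {k : Fin r} (ha : a k = 0) {γ : Fin r →₀ ℕ}
    (h : γ ∈ SB a k) : ∑ i, toZ γ i • cvec a k i = toZ (iota a k γ) := by
  funext l
  rw [Finset.sum_apply]
  simp only [Pi.smul_apply, smul_eq_mul, toZ]
  rw [mem_SB] at h
  by_cases hl : l = k
  · subst hl
    rw [iota_self]
    have : ∀ i ∈ univ, ((γ i : ℕ) : ℤ) * cvec a l i l =
        (γ i : ℤ) * (a i : ℤ) - (if i = l then (γ l : ℤ) else 0) := by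
      intro i _
      unfold cvec
      by_cases hi : i = l
      · subst hi
        simp [ha]
      · simp [hi, Ne.symm hi]
    rw [sum_congr rfl this, sum_sub_distrib]
    simp only [sum_ite_eq', mem_univ, if_true]
    rw [Nat.cast_sub h, aSum]
    push_cast
    rfl
  · rw [iota_ne a hl, sum_eq_single l]
    · simp [cvec, hl]
    · intro i _ hi
      unfold cvec
      by_cases hik : i = k
      · subst hik
        simp [hl]
      · simp [hik, hl, Ne.symm hi]
    · simp

theorem omega_iota {B B' : Matrix (Fin r) (Fin r) ℤ} {a : Fin r → ℕ} {k : Fin r}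
    (hB' : B' = gram B (cvec a k)) (ha : a k = 0) {γ δ : Fin r →₀ ℕ} (h : γ ∈ SB a k)
    (h' : δ ∈ SB a k) :
    omega B' (toZ γ) (toZ δ) = omega B (toZ (iota a k γ)) (toZ (iota a k δ)) := by
  rw [hB', omega_gram, sum_cvec ha h, sum_cvec ha h']

/-! ### transport of series -/

open Classical in
/-- Transport of a series (supported on `SB a k`) to the new coordinates. -/
def tr {B : Matrix (Fin r) (Fin r) ℤ} (B' : Matrix (Fin r) (Fin r) ℤ) (a : Fin r → ℕ)
    (k : Fin r) (f : QSeries B) : QSeries B' :=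
  fun γ => if γ ∈ SB a k then f (iota a k γ) else 0

variable {B B' : Matrix (Fin r) (Fin r) ℤ} {a : Fin r → ℕ} {k : Fin r}

theorem tr_apply (f : QSeries B) {γ : Fin r →₀ ℕ} (h : γ ∈ SB a k) :
    tr B' a k f γ = f (iota a k γ) := by
  unfold tr
  rw [if_pos h]

theorem tr_apply_of_not (f : QSeries B) {γ : Fin r →₀ ℕ} (h : γ ∉ SB a k) :
    tr B' a k f γ = 0 := by
  unfold tr
  rw [if_neg h]

theorem tr_mem (f : QSeries B) : tr B' a k f ∈ supp (B := B') (SB a k) := by
  intro γ h
  by_contra hn
  exact h (tr_apply_of_not f hn)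

@[simp] theorem tr_zero_apply (f : QSeries B) : tr B' a k f 0 = f 0 := by
  rw [tr_apply f (SB a k).zero_mem, iota_zero]

theorem tr_one (ha : a k = 0) : tr B' a k (1 : QSeries B) = 1 := by
  ext γ
  by_cases h : γ ∈ SB a k
  · rw [tr_apply _ h, one_apply, one_apply]
    simp [iota_eq_zero ha h]
  · rw [tr_apply_of_not _ h, one_apply, if_neg]
    rintro rfl
    exact h (SB a k).zero_mem

theorem tr_add (f g : QSeries B) : tr B' a k (f + g) = tr B' a k f + tr B' a k g := by
  ext γ
  by_cases h : γ ∈ SB a k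
  · simp [tr_apply _ h]
  · simp [tr_apply_of_not _ h]

theorem tr_mul (hB' : B' = gram B (cvec a k)) (ha : a k = 0) {f g : QSeries B}
    (hf : f ∈ supp (B := B) (SB a k)) (hg : g ∈ supp (B := B) (SB a k)) :
    tr B' a k (f * g) = tr B' a k f * tr B' a k g := by
  classical
  ext γ
  by_cases h : γ ∈ SB a k
  · rw [tr_apply _ h, mul_apply, mul_apply]
    have e1 : ∑ p ∈ antidiagonal (iota a k γ),
        v ^ omega B (toZ p.1) (toZ p.2) * f p.1 * g p.2 =
        ∑ p ∈ (antidiagonal (iota a k γ)).filter (fun p => p.1 ∈ SB a k ∧ p.2 ∈ SB a k),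
        v ^ omega B (toZ p.1) (toZ p.2) * f p.1 * g p.2 := by
      rw [sum_filter]
      refine sum_congr rfl fun p _ => ?_
      split_ifs with hp
      · rfl
      · by_cases h1 : f p.1 = 0
        · simp [h1]
        · by_cases h2 : g p.2 = 0
          · simp [h2]
          · exact absurd ⟨hf _ h1, hg _ h2⟩ hp
    have e2 : ∑ p ∈ antidiagonal γ,
        v ^ omega B' (toZ p.1) (toZ p.2) * tr B' a k f p.1 * tr B' a k g p.2 =
        ∑ p ∈ (antidiagonal γ).filter (fun p => p.1 ∈ SB a k ∧ p.2 ∈ SB a k),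
        v ^ omega B' (toZ p.1) (toZ p.2) * tr B' a k f p.1 * tr B' a k g p.2 := by
      rw [sum_filter]
      refine sum_congr rfl fun p _ => ?_
      split_ifs with hp
      · rfl
      · by_cases h1 : p.1 ∈ SB a k
        · have h2 : p.2 ∉ SB a k := fun h2 => hp ⟨h1, h2⟩
          rw [tr_apply_of_not g h2, mul_zero]
        · rw [tr_apply_of_not f h1, mul_zero, zero_mul]
    rw [e1, e2]
    refine sum_bij' (fun p _ => (iota a k p.1, iota a k p.2))
      (fun p _ => (iota a k p.1, iota a k p.2)) ?_ ?_ ?_ ?_ ?_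
    · rintro ⟨x, y⟩ hp
      simp only [mem_filter, HasAntidiagonal.mem_antidiagonal] at hp ⊢
      refine ⟨?_, iota_mem ha _, iota_mem ha _⟩
      rw [← iota_add hp.2.1 hp.2.2, hp.1, iota_iota ha h]
    · rintro ⟨x, y⟩ hp
      simp only [mem_filter, HasAntidiagonal.mem_antidiagonal] at hp ⊢
      refine ⟨?_, iota_mem ha _, iota_mem ha _⟩
      rw [← iota_add hp.2.1 hp.2.2, hp.1]
    · rintro ⟨x, y⟩ hp
      simp only [mem_filter, HasAntidiagonal.mem_antidiagonal] at hp
      simp only [iota_iota ha hp.2.1, iota_iota ha hp.2.2]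
    · rintro ⟨x, y⟩ hp
      simp only [mem_filter, HasAntidiagonal.mem_antidiagonal] at hp
      simp only [iota_iota ha hp.2.1, iota_iota ha hp.2.2]
    · rintro ⟨x, y⟩ hp
      simp only [mem_filter, HasAntidiagonal.mem_antidiagonal] at hp
      simp only
      rw [tr_apply f (iota_mem ha _), tr_apply g (iota_mem ha _), iota_iota ha hp.2.1,
        iota_iota ha hp.2.2, omega_iota hB' ha (iota_mem ha _) (iota_mem ha _),
        iota_iota ha hp.2.1, iota_iota ha hp.2.2]
  · rw [tr_apply_of_not _ h]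
    symm
    apply QSeries.mul_apply_eq_zero
    intro x y hxy
    by_contra hc
    push Not at hc
    exact h (hxy ▸ (SB a k).add_mem (tr_mem f x hc.1) (tr_mem g y hc.2))

end

end H21

end Vale.Agent.P066.Theta
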